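import Mathlib
import Vale.Agent.Lib.P302.Defs
import Vale.Agent.Lib.P302.Check
import Vale.Agent.Lib.P302.Bridge
import Vale.Agent.Lib.P302.TwoThree
import Vale.Agent.Lib.P302.PadBig
import Vale.Agent.Lib.P302.Frame

namespace Vale.Agent.Results.P302.Gap179over144

open Vale.Agent.Lib.P302

/-- the 12 hosts (bin capacity `688320`), in decreasing order -/
def hosts : List ℕ := [509065, 509064, 509062, 509058, 509049, 509016, 509014, 509010, 509001, 508872, 508870, 508866]

/-- the 9 device items, in decreasing order -/
def frame : List ℕ := [397696, 292536, 246648, 240912, 235176, 231352, 225616, 223704, 217968]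

/-- the 26 guests, in decreasing order -/
def guests : List ℕ := [89864, 89864, 89864, 89728, 89728, 89727, 89726, 89725, 89724, 89722, 89656, 89656, 89655, 89654, 89653, 89652, 89650, 89632, 89632, 89631, 89630, 89629, 89628, 89626, 89615, 89591]

/-- a fractional solution: patterns with weights `numerator / 144` -/
def sol : List (List ℕ × ℕ) :=
  [([509016, 89650, 89654], 72),
    ([509001, 89656, 89656], 16),
    ([509062, 89629, 89629], 72),
    ([509049, 89632, 89632], 48),
    ([509010, 89654, 89656], 72),
    ([509065, 89591, 89656], 16),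
    ([509014, 89653, 89653], 72),
    ([508866, 89726, 89728], 72),
    ([509064, 89628, 89628], 72),
    ([509001, 89591, 89728], 128),
    ([509064, 89626, 89630], 72),
    ([509010, 89655, 89655], 72),
    ([509062, 89626, 89632], 72),
    ([509058, 89631, 89631], 72),
    ([509058, 89630, 89632], 72),
    ([509014, 89650, 89656], 72),
    ([509065, 89615, 89632], 48),
    ([509049, 89615, 89656], 96),
    ([509016, 89652, 89652], 72),
    ([508872, 89722, 89726], 72),
    ([508870, 89725, 89725], 72),
    ([508870, 89722, 89728], 72),
    ([508872, 89724, 89724], 72),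
    ([508866, 89727, 89727], 72),
    ([509065, 89864], 80),
    ([292536, 292536, 89728], 16),
    ([292536, 292536, 89864], 56),
    ([397696, 89864, 89864, 89864], 74),
    ([246648, 246648, 89864, 89864], 37),
    ([240912, 223704, 223704], 72),
    ([231352, 231352, 225616], 72),
    ([240912, 225616, 217968], 72),
    ([235176, 235176, 217968], 72),
    ([397696, 246648], 70)]

theorem search_false : part3 688320 16
    (hosts ++ guests ++ List.replicate (2 * 12 + 3 * 1 - guests.length) 0)
    ((12 + 1) * 688320 - (hosts ++ guests).sum) = false := by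
  decide +kernel

theorem frame_false : search 688320 23 (singles frame ++ [(89591, 3 * 1 + 1)])
    (4 * 688320 - vol (singles frame ++ [(89591, 3 * 1 + 1)])) = false := by
  decide +kernel

theorem sorted_ok :
    (hosts ++ guests ++ List.replicate (2 * 12 + 3 * 1 - guests.length) 0).Pairwise (· ≥ ·) := by
  decide +kernel

theorem host_ok : ∀ h ∈ hosts, 508866 ≤ h ∧ h ≤ 688320 := by decide +kernel

theorem frame_ok : ∀ f ∈ frame, 217968 ≤ f ∧ f < 508866 := by decide +kernel

theorem guest_ok : ∀ g ∈ guests, 89591 ≤ g ∧ g ≤ 89864 := by decide +kernel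

theorem len_ok : hosts.length = 12 := by decide +kernel

theorem cfg_ok : ∀ p ∈ sol, (∀ a ∈ p.1, a ∈ hosts ++ frame ++ guests) ∧ p.1.sum ≤ 688320 := by
  decide +kernel

theorem cov_ok : ∀ a ∈ hosts ++ frame ++ guests,
    144 * (hosts ++ frame ++ guests).count a ≤ (sol.map (fun p => p.1.count a * p.2)).sum := by
  decide +kernel

theorem sol_value : (sol.map Prod.snd).sum = 2269 := by decide +kernel

/-- There is a bin packing instance (rational sizes in `(0,1]`) with
`OPT - LP ≥ 179/144`. -/
theorem result : ∃ I : Multiset ℚ, (∀ a ∈ I, 0 < a ∧ a ≤ 1) ∧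
    ((179 : ℝ) / 144 ≤ (opt I : ℝ) - lp I) := by
  have h := gap_certificate_frame 688320 12 4 1 16 23 508866 217968 89591 89864 144
    (by norm_num) (by norm_num) hosts frame guests sol host_ok frame_ok guest_ok
    (by norm_num) (by norm_num) (by norm_num) (by norm_num) (by norm_num) (by norm_num)
    (by norm_num) (by norm_num) len_ok frame_false sorted_ok search_false cfg_ok cov_ok
  refine ⟨inst 688320 (singles (hosts ++ frame ++ guests)), h.1, ?_⟩
  have h2 := h.2
  rw [sol_value] at h2
  norm_num at h2 ⊢
  linarith

end Vale.Agent.Results.P302.Gap179over144
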