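import Mathlib
import Vale.Agent.Lib.P302.Defs
import Vale.Agent.Lib.P302.Check
import Vale.Agent.Lib.P302.Bridge
import Vale.Agent.Lib.P302.TwoThree
import Vale.Agent.Lib.P302.PadBig
import Vale.Agent.Lib.P302.Frame
import Vale.Agent.Lib.P302.H19.Device

namespace Vale.Agent.Results.P302.Gap367over288

open Vale.Agent.Lib.P302 Vale.Agent.Lib.P302.H19D

/-- the 12 hosts (bin capacity `256320`), in decreasing order -/
def hosts : List ℕ := [189865, 189864, 189862, 189858, 189849, 189816, 189814, 189810, 189801, 189672, 189670, 189666]

/-- the three absorbers -/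
def absorbers : List ℕ := [148096, 108936, 91848]

/-- the weights of the absorbers -/
def wf (x : ℕ) : ℕ := if x = 148096 then 10 else if x = 108936 then 8 else 6

/-- the 2 largest core items, in decreasing order -/
def coreBig : List ℕ := [88384, 87296]

/-- the 18 smallest core items, in decreasing order -/
def coreSmall : List ℕ := [87296, 87104, 87040, 86848, 86720, 86528, 85696, 85446, 85443, 85441, 85438, 85437, 85434, 84544, 84416, 82624, 82496, 82240]

/-- the 28 guests, in decreasing order -/
def guests : List ℕ := [33464, 33464, 33464, 33464, 33464, 33328, 33328, 33327, 33326, 33325, 33324, 33322, 33256, 33256, 33255, 33254, 33253, 33252, 33250, 33232, 33232, 33231, 33230, 33229, 33228, 33226, 33215, 33191]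

/-- a fractional solution: patterns with weights `numerator / 288` -/
def sol : List (List ℕ × ℕ) :=
  [([189816, 33250, 33254], 144),
    ([189801, 33256, 33256], 32),
    ([189862, 33229, 33229], 144),
    ([189849, 33232, 33232], 96),
    ([189810, 33254, 33256], 144),
    ([189865, 33191, 33256], 32),
    ([189814, 33253, 33253], 144),
    ([189666, 33326, 33328], 144),
    ([189864, 33228, 33228], 144),
    ([189801, 33191, 33328], 256),
    ([189864, 33226, 33230], 144),
    ([189810, 33255, 33255], 144),
    ([189862, 33226, 33232], 144),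
    ([189858, 33231, 33231], 144),
    ([189858, 33230, 33232], 144),
    ([189814, 33250, 33256], 144),
    ([189865, 33215, 33232], 96),
    ([189849, 33215, 33256], 192),
    ([189816, 33252, 33252], 144),
    ([189672, 33322, 33326], 144),
    ([189670, 33325, 33325], 144),
    ([189670, 33322, 33328], 144),
    ([189672, 33324, 33324], 144),
    ([189666, 33327, 33327], 144),
    ([189865, 33464], 160),
    ([85438, 85441, 85441], 144),
    ([85434, 85443, 85443], 144),
    ([82496, 86528, 87296], 144),
    ([82496, 86720, 87104], 144),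
    ([82240, 86720, 87296], 144),
    ([82240, 87040, 87040], 144),
    ([85434, 85438, 85446], 144),
    ([84416, 84544, 87296], 216),
    ([82624, 86848, 86848], 144),
    ([82624, 86528, 87104], 144),
    ([84416, 85696, 85696], 72),
    ([84544, 85696, 85696], 72),
    ([85437, 85437, 85446], 144),
    ([148096, 33464, 33464, 33464], 202),
    ([108936, 108936, 33464], 144),
    ([91848, 88384, 33464, 33464], 265),
    ([91848, 88384, 33328, 33328], 9),
    ([148096, 88384], 14),
    ([148096, 87296], 72),
    ([91848, 91848, 33328, 33328], 7)]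

theorem search_false : part3 256320 16
    (hosts ++ List.replicate 1 33464 ++ guests ++ List.replicate (2 * 12 + 3 * 2 - 1 - guests.length) 0)
    ((12 + 2) * 256320 - (hosts ++ List.replicate 1 33464 ++ guests).sum) = false := by
  decide +kernel

theorem core_false : part3 256320 8 coreSmall (6 * 256320 - coreSmall.sum) = false := by
  decide +kernel

theorem sorted_ok :
    (hosts ++ List.replicate 1 33464 ++ guests ++ List.replicate (2 * 12 + 3 * 2 - 1 - guests.length) 0).Pairwise (· ≥ ·) := by
  decide +kernel

theorem core_sorted : (coreBig ++ coreSmall).Pairwise (· ≥ ·) := by decide +kernel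

theorem host_ok : ∀ h ∈ hosts, 189666 ≤ h ∧ h ≤ 256320 := by decide +kernel

theorem abs_ok : ∀ f ∈ absorbers, 91848 ≤ f ∧ f < 189666 := by decide +kernel

theorem core_ok : ∀ f ∈ coreBig ++ coreSmall, 82240 ≤ f ∧ f < 91848 := by decide +kernel

theorem guest_ok : ∀ g ∈ guests, 33191 ≤ g ∧ g ≤ 33464 := by decide +kernel

theorem len_ok : hosts.length = 12 := by decide +kernel

theorem core_len : (coreBig ++ coreSmall).length = 20 := by decide +kernel

theorem small_len : coreSmall.length = 3 * 6 := by decide +kernel

theorem chk_ok : ∀ S ∈ absorbers.sublists, ∀ a ∈ List.range (256320 / 82240 + 1),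
    ∀ g ∈ List.range (256320 / 33191 + 1), S.sum + a * 82240 + g * 33191 ≤ 256320 →
      (S.map wf).sum + a * 6 + g * 2 ≤ 16 + (if S = [] ∧ a = 3 ∧ g = 0 then 2 else 0) := by
  decide +kernel

theorem count_ok : 16 * 9 + 2 * 6 + 2 * 1 + 1
    ≤ 2 * (3 * 2 + 1) + (absorbers.map wf).sum + 20 * 6 + 2 := by
  decide +kernel

theorem cfg_ok : ∀ p ∈ sol,
    (∀ a ∈ p.1, a ∈ hosts ++ (absorbers ++ (coreBig ++ coreSmall)) ++ guests)
      ∧ p.1.sum ≤ 256320 := by
  decide +kernel

theorem cov_ok : ∀ a ∈ hosts ++ (absorbers ++ (coreBig ++ coreSmall)) ++ guests,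
    288 * (hosts ++ (absorbers ++ (coreBig ++ coreSmall)) ++ guests).count a
      ≤ (sol.map (fun p => p.1.count a * p.2)).sum := by
  decide +kernel

theorem sol_value : (sol.map Prod.snd).sum = 5969 := by decide +kernel

/-- There is a bin packing instance (rational sizes in `(0,1]`) with
`OPT - LP ≥ 367/288`. -/
theorem result : ∃ I : Multiset ℚ, (∀ a ∈ I, 0 < a ∧ a ≤ 1) ∧
    ((367 : ℝ) / 288 ≤ (opt I : ℝ) - lp I) := by
  have h := gap_certificate_device 256320 12 9 2 1 6 20 16 8 189666 82240 91848
    33191 33464 33464 16 2 2 6 288 wf (by norm_num) (by norm_num)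
    hosts absorbers coreBig coreSmall guests sol host_ok abs_ok core_ok guest_ok
    (by norm_num) (by norm_num) (by norm_num) (by norm_num) (by norm_num) (by norm_num)
    (by norm_num) (by norm_num) (by norm_num) (by norm_num) chk_ok len_ok core_len
    core_sorted small_len core_false count_ok (by norm_num) sorted_ok search_false
    cfg_ok cov_ok
  refine ⟨inst 256320 (singles (hosts ++ (absorbers ++ (coreBig ++ coreSmall)) ++ guests)),
    h.1, ?_⟩
  have h2 := h.2
  rw [sol_value] at h2
  norm_num at h2 ⊢
  linarith

end Vale.Agent.Results.P302.Gap367over288
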