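import Mathlib
import Vale.Agent.Lib.P302.Defs
import Vale.Agent.Lib.P302.Check
import Vale.Agent.Lib.P302.Bridge
import Vale.Agent.Lib.P302.TwoThree
import Vale.Agent.Lib.P302.PadBig
import Vale.Agent.Lib.P302.Frame
import Vale.Agent.Lib.P302.Frame23
import Vale.Agent.Lib.P302.FrameGen

namespace Vale.Agent.Results.P302.Gap725over576

open Vale.Agent.Lib.P302

/-- the 12 hosts (bin capacity `176209920`), in decreasing order -/
def hosts : List ℕ := [130200025, 130200024, 130200022, 130200018, 130200009, 130199976, 130199974, 130199970, 130199961, 130199832, 130199830, 130199826]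

/-- the 16 frame items -/
def frame : List ℕ := [101810176, 74889216, 63141888, 59226112, 59226112, 59103744, 58859008, 58748112, 58742376, 58738552, 58732816, 58730904, 58725168, 58491904, 58491904, 58002432]

/-- the 31 guests, in decreasing order -/
def guests : List ℕ := [23005184, 23005184, 23005184, 23005184, 23005184, 23005184, 23005184, 23005184, 23005048, 23005048, 23005047, 23005046, 23005045, 23005044, 23005042, 23004976, 23004976, 23004975, 23004974, 23004973, 23004972, 23004970, 23004952, 23004952, 23004951, 23004950, 23004949, 23004948, 23004946, 23004935, 23004911]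

/-- a fractional solution: patterns with weights `numerator / 576` -/
def sol : List (List ℕ × ℕ) :=
  [([130199976, 23004974, 23004970], 288),
    ([130199961, 23004976, 23004976], 64),
    ([130200022, 23004949, 23004949], 288),
    ([130200009, 23004952, 23004952], 192),
    ([130199970, 23004976, 23004974], 288),
    ([130200025, 23004976, 23004911], 64),
    ([130199974, 23004973, 23004973], 288),
    ([130199826, 23005048, 23005046], 288),
    ([130200024, 23004948, 23004948], 288),
    ([130199961, 23005048, 23004911], 512),
    ([130200024, 23004950, 23004946], 288),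
    ([130199970, 23004975, 23004975], 288),
    ([130200022, 23004952, 23004946], 288),
    ([130200018, 23004951, 23004951], 288),
    ([130200018, 23004952, 23004950], 288),
    ([130199974, 23004976, 23004970], 288),
    ([130200025, 23004952, 23004935], 192),
    ([130200009, 23004976, 23004935], 384),
    ([130199976, 23004972, 23004972], 288),
    ([130199832, 23005046, 23005042], 288),
    ([130199830, 23005045, 23005045], 288),
    ([130199830, 23005048, 23005042], 288),
    ([130199832, 23005044, 23005044], 288),
    ([130199826, 23005047, 23005047], 288),
    ([130200025, 23005184], 320),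
    ([59226112, 23005184, 23005184, 23005184, 23005184, 23005048], 64),
    ([59226112, 23005184, 23005184, 23005184, 23005184, 23005184], 296),
    ([74889216, 74889216, 23005184], 288),
    ([101810176, 23005184, 23005184, 23005184], 566),
    ([58748112, 58730904, 58730904], 288),
    ([59226112, 58491904, 58491904], 504),
    ([101810176, 63141888], 10),
    ([58748112, 58732816, 58725168], 288),
    ([59103744, 59103744, 58002432], 288),
    ([58738552, 58738552, 58732816], 288),
    ([58742376, 58742376, 58725168], 288),
    ([58859008, 58859008, 58491904], 144),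
    ([59226112, 58859008, 58002432], 288),
    ([63141888, 63141888, 23005184, 23005184], 283)]

theorem search_false : part3 176209920 18
    (hosts ++ List.replicate 1 23005184 ++ guests
      ++ List.replicate (2 * 12 + 3 * 3 - 1 - guests.length) 0)
    ((12 + 3) * 176209920 - (hosts ++ List.replicate 1 23005184 ++ guests).sum) = false := by
  decide +kernel

theorem frame_false : search 176209920 120 (singles frame ++ [(23004911, 8 + 1)])
    (7 * 176209920 - vol (singles frame ++ [(23004911, 8 + 1)])) = false := by
  decide +kernel

theorem sorted_ok :
    (hosts ++ List.replicate 1 23005184 ++ guests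
      ++ List.replicate (2 * 12 + 3 * 3 - 1 - guests.length) 0).Pairwise (· ≥ ·) := by
  decide +kernel

theorem host_ok : ∀ h ∈ hosts, 130199826 ≤ h ∧ h ≤ 176209920 := by decide +kernel

theorem frame_ok : ∀ f ∈ frame, 58002432 ≤ f ∧ f < 130199826 := by decide +kernel

theorem guest_ok : ∀ g ∈ guests, 23004911 ≤ g ∧ g ≤ 23005184 := by decide +kernel

theorem len_ok : hosts.length = 12 := by decide +kernel

theorem cfg_ok : ∀ p ∈ sol, (∀ a ∈ p.1, a ∈ hosts ++ frame ++ guests) ∧ p.1.sum ≤ 176209920 := by
  decide +kernel

theorem cov_ok : ∀ a ∈ hosts ++ frame ++ guests,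
    576 * (hosts ++ frame ++ guests).count a ≤ (sol.map (fun p => p.1.count a * p.2)).sum := by
  decide +kernel

theorem sol_value : (sol.map Prod.snd).sum = 10795 := by decide +kernel

/-- There is a bin packing instance (rational sizes in `(0,1]`) with
`OPT - LP ≥ 725/576`. -/
theorem result : ∃ I : Multiset ℚ, (∀ a ∈ I, 0 < a ∧ a ≤ 1) ∧
    ((725 : ℝ) / 576 ≤ (opt I : ℝ) - lp I) := by
  have h := gap_certificate_frame_gen 176209920 12 7 3 1 23005184 8 18 120 130199826 58002432
    23004911 23005184 576
    (by norm_num) (by norm_num) hosts frame guests sol host_ok frame_ok guest_ok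
    (by norm_num) (by norm_num) (by norm_num) (by norm_num) (by norm_num) (by norm_num)
    (by norm_num) (by norm_num) (by norm_num) len_ok (by norm_num) frame_false sorted_ok
    search_false cfg_ok cov_ok
  refine ⟨inst 176209920 (singles (hosts ++ frame ++ guests)), h.1, ?_⟩
  have h2 := h.2
  rw [sol_value] at h2
  norm_num at h2 ⊢
  linarith

end Vale.Agent.Results.P302.Gap725over576
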