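import Mathlib
import Vale.Agent.Lib.P302.H7.Defs
import Vale.Agent.Lib.P302.H7.Dual
import Vale.Agent.Lib.P302.H7.Count
import Vale.Agent.Lib.P302.H7.Pack

/-!
# The modified integer round-up property for bin packing instances with small optimum

For every bin packing instance `I` (item sizes in `(0,1]`) with `LP(I) ≤ 3`, or with
`OPT(I) ≤ 5`, we have `OPT(I) ≤ ⌈LP(I)⌉ + 1`.

Proof. Weak duality for the configuration LP gives `sum I ≤ LP`, `#{a > 1/2} ≤ LP` and
`#{a > 1/3} ≤ 2 LP`. If `LP ≤ 2`, put the at most two items larger than `1/2` into separate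
bins out of three and add all other items by first fit: an item `x ≤ 1/2` that fits nowhere
forces total size larger than `3 (1 - x) + x ≥ 2`. If `LP ≤ 3`, pack the items larger than `1/3`
into four bins (big items alone, items of `(1/3,1/2]` in pairs; in the only tight case of three
big and three medium items a dual certificate gives a big and a medium item that fit together),
and add the items of size at most `1/3` by first fit.
-/

namespace Vale.Agent.Results.P302.H7_SmallOpt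

open Vale.Agent.Lib.P302.H7 Multiset

theorem lp_nonneg (I : Multiset ℚ) (hI : ∀ a ∈ I, 0 < a ∧ a ≤ 1) : 0 ≤ lp I := by
  have h0 : (0 : ℚ) ≤ I.sum := Multiset.sum_nonneg (fun a ha => (hI a ha).1.le)
  have h1 : ((0 : ℚ) : ℝ) ≤ ((I.sum : ℚ) : ℝ) := by exact_mod_cast h0
  have h2 := sum_le_lp I hI
  simp only [Rat.cast_zero] at h1
  linarith

/-- `LP ≤ 1` implies `OPT ≤ 1`. -/
theorem opt_le_one (I : Multiset ℚ) (hI : ∀ a ∈ I, 0 < a ∧ a ≤ 1) (h : lp I ≤ 1) :
    opt I ≤ 1 := by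
  have hs : ((I.sum : ℚ) : ℝ) ≤ ((1 : ℚ) : ℝ) := by
    have := sum_le_lp I hI
    simp only [Rat.cast_one]
    linarith
  have hs' : I.sum ≤ 1 := by exact_mod_cast hs
  have hP : IsPacking I {I} := ⟨by simp, by simpa using hs'⟩
  simpa using opt_le I {I} hP

/-- `LP ≤ 2` implies `OPT ≤ 3`. -/
theorem opt_le_three (I : Multiset ℚ) (hI : ∀ a ∈ I, 0 < a ∧ a ≤ 1) (h : lp I ≤ 2) :
    opt I ≤ 3 := by
  have hsplit : I.filter (fun a => (1 / 2 : ℚ) < a) + I.filter (fun a => ¬ (1 / 2 : ℚ) < a) = I :=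
    Multiset.filter_add_not _ _
  have hBc : Multiset.card (I.filter (fun a => (1 / 2 : ℚ) < a)) ≤ 2 := by
    have h1 := card_big_le_lp I hI
    have h2 : (Multiset.card (I.filter (fun a => (1 / 2 : ℚ) < a)) : ℝ) ≤ ((2 : ℕ) : ℝ) := by
      push_cast
      linarith
    exact_mod_cast h2
  have hP0 := isPacking_singletons (I.filter (fun a => (1 / 2 : ℚ) < a))
    (fun a ha => (hI a (Multiset.mem_filter.mp ha).1).2)
  obtain ⟨P1, hP1, hc1⟩ := isPacking_pad _ _ 3 hP0 (by rw [Multiset.card_map]; omega)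
  have hsum : (I.filter (fun a => (1 / 2 : ℚ) < a) + I.filter (fun a => ¬ (1 / 2 : ℚ) < a)).sum
      ≤ 2 := by
    rw [hsplit]
    have h2 : ((I.sum : ℚ) : ℝ) ≤ (2 : ℝ) := le_trans (sum_le_lp I hI) h
    exact_mod_cast h2
  obtain ⟨Q, hQ, hQc⟩ := first_fit 3 (by norm_num) 2 _ _ P1 hP1 hc1 (fun x hx => by
    rw [Multiset.mem_filter] at hx
    have h1 := (hI x hx.1).1
    have h2 := not_lt.mp hx.2
    refine ⟨h1, ?_⟩
    push_cast
    linarith) hsum
  rw [hsplit] at hQ
  have := opt_le I Q hQ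
  omega

/-- `LP ≤ 3` implies `OPT ≤ 4`. -/
theorem opt_le_four (I : Multiset ℚ) (hI : ∀ a ∈ I, 0 < a ∧ a ≤ 1) (h : lp I ≤ 3) :
    opt I ≤ 4 := by
  obtain ⟨Bg, hBg⟩ : ∃ Bg, Bg = I.filter (fun a => (1 / 2 : ℚ) < a) := ⟨_, rfl⟩
  obtain ⟨Rs, hRs⟩ : ∃ Rs, Rs = I.filter (fun a => ¬ (1 / 2 : ℚ) < a) := ⟨_, rfl⟩
  obtain ⟨Md, hMd⟩ : ∃ Md, Md = Rs.filter (fun a => (1 / 3 : ℚ) < a) := ⟨_, rfl⟩
  obtain ⟨Sm, hSm⟩ : ∃ Sm, Sm = Rs.filter (fun a => ¬ (1 / 3 : ℚ) < a) := ⟨_, rfl⟩
  have hsplit1 : Bg + Rs = I := by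
    rw [hBg, hRs]
    exact Multiset.filter_add_not _ _
  have hsplit2 : Md + Sm = Rs := by
    rw [hMd, hSm]
    exact Multiset.filter_add_not _ _
  have hBmem : ∀ a ∈ Bg, a ∈ I ∧ (1 / 2 : ℚ) < a := by
    intro a ha
    rw [hBg] at ha
    exact Multiset.mem_filter.mp ha
  have hRmem : ∀ a ∈ Rs, a ∈ I ∧ ¬ (1 / 2 : ℚ) < a := by
    intro a ha
    rw [hRs] at ha
    exact Multiset.mem_filter.mp ha
  have hthird : I.filter (fun a => (1 / 3 : ℚ) < a) = Bg + Md := by
    conv_lhs => rw [← hsplit1]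
    rw [Multiset.filter_add, ← hMd]
    congr 1
    rw [Multiset.filter_eq_self]
    intro a ha
    have := (hBmem a ha).2
    linarith
  have hB3 : Multiset.card Bg ≤ 3 := by
    have h1 := card_big_le_lp I hI
    rw [← hBg] at h1
    have h2 : (Multiset.card Bg : ℝ) ≤ ((3 : ℕ) : ℝ) := by
      push_cast
      linarith
    exact_mod_cast h2
  have hBM : Multiset.card Bg + Multiset.card Md ≤ 6 := by
    have h1 := card_third_le_lp I hI
    rw [hthird, Multiset.card_add] at h1
    have h2 : ((Multiset.card Bg + Multiset.card Md : ℕ) : ℝ) ≤ ((6 : ℕ) : ℝ) := by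
      push_cast at h1 ⊢
      linarith
    exact_mod_cast h2
  have hBle : ∀ a ∈ Bg, a ≤ 1 := fun a ha => (hI a (hBmem a ha).1).2
  have hMmem : ∀ a ∈ Md, a ∈ Rs ∧ (1 / 3 : ℚ) < a := by
    intro a ha
    rw [hMd] at ha
    exact Multiset.mem_filter.mp ha
  have hMle : ∀ a ∈ Md, a ≤ 1 / 2 := fun a ha => not_lt.mp (hRmem a (hMmem a ha).1).2
  have hpack : ∃ P, IsPacking (Bg + Md) P ∧ Multiset.card P ≤ 4 := by
    by_cases hcase : Multiset.card Bg = 3 ∧ Multiset.card Md = 3
    · obtain ⟨b, hbI, m, hmI, hb, hm1, hm2, hfit⟩ := exists_fit I hI h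
        (by rw [← hBg]; omega) (by rw [hthird, Multiset.card_add, ← hBg]; omega)
      have hbB : b ∈ Bg := by
        rw [hBg]
        exact Multiset.mem_filter.mpr ⟨hbI, hb⟩
      have hmM : m ∈ Md := by
        rw [hMd]
        refine Multiset.mem_filter.mpr ⟨?_, hm1⟩
        rw [hRs]
        exact Multiset.mem_filter.mpr ⟨hmI, hm2⟩
      obtain ⟨B', hB'⟩ := Multiset.exists_cons_of_mem hbB
      obtain ⟨M', hM'⟩ := Multiset.exists_cons_of_mem hmM
      have hB'c : Multiset.card B' = 2 := by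
        have := congrArg Multiset.card hB'
        rw [Multiset.card_cons] at this
        omega
      have hM'c : Multiset.card M' = 2 := by
        have := congrArg Multiset.card hM'
        rw [Multiset.card_cons] at this
        omega
      have hP0 := isPacking_singletons B'
        (fun a ha => hBle a (by rw [hB']; exact Multiset.mem_cons_of_mem ha))
      obtain ⟨PM, hPM, hPMc⟩ := pairUp M'
        (fun a ha => hMle a (by rw [hM']; exact Multiset.mem_cons_of_mem ha))
      have h1 := isPacking_cons (B' + M') _ ({b, m} : Multiset ℚ) (by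
        simp only [Multiset.insert_eq_cons, Multiset.sum_cons, Multiset.sum_singleton]
        exact hfit) (isPacking_add _ _ _ _ hP0 hPM)
      refine ⟨({b, m} : Multiset ℚ) ::ₘ (B'.map (fun a => ({a} : Multiset ℚ)) + PM), ?_, ?_⟩
      · have hre : Bg + Md = ({b, m} : Multiset ℚ) + (B' + M') := by
          rw [hB', hM', Multiset.cons_add, Multiset.add_cons, Multiset.insert_eq_cons,
            Multiset.cons_add, Multiset.singleton_add]
        rw [hre]
        exact h1
      · rw [Multiset.card_cons, Multiset.card_add, Multiset.card_map]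
        omega
    · have hP0 := isPacking_singletons Bg hBle
      obtain ⟨PM, hPM, hPMc⟩ := pairUp Md hMle
      refine ⟨Bg.map (fun a => ({a} : Multiset ℚ)) + PM, isPacking_add _ _ _ _ hP0 hPM, ?_⟩
      rw [Multiset.card_add, Multiset.card_map]
      omega
  obtain ⟨P, hP, hPc⟩ := hpack
  obtain ⟨P1, hP1, hc1⟩ := isPacking_pad _ P 4 hP hPc
  have hI2 : Bg + Md + Sm = I := by
    rw [add_assoc, hsplit2, hsplit1]
  have hsum : (Bg + Md + Sm).sum ≤ 3 := by
    rw [hI2]
    have h2 : ((I.sum : ℚ) : ℝ) ≤ (3 : ℝ) := le_trans (sum_le_lp I hI) h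
    exact_mod_cast h2
  obtain ⟨Q, hQ, hQc⟩ := first_fit 4 (by norm_num) 3 Sm (Bg + Md) P1 hP1 hc1 (fun x hx => by
    rw [hSm, Multiset.mem_filter] at hx
    have h1 := (hI x (hRmem x hx.1).1).1
    have h2 := not_lt.mp hx.2
    refine ⟨h1, ?_⟩
    push_cast
    linarith) hsum
  rw [hI2] at hQ
  have := opt_le I Q hQ
  omega

/-- **The modified integer round-up property holds for all bin packing instances with
`LP(I) ≤ 3`, and for all instances with `OPT(I) ≤ 5`.** -/
theorem result (I : Multiset ℚ) (hI : ∀ a ∈ I, 0 < a ∧ a ≤ 1) (h : lp I ≤ 3 ∨ opt I ≤ 5) :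
    (opt I : ℤ) ≤ ⌈lp I⌉ + 1 := by
  have hlp0 := lp_nonneg I hI
  have hc0 : (0 : ℤ) ≤ ⌈lp I⌉ := Int.ceil_nonneg hlp0
  by_cases h1 : lp I ≤ 1
  · have := opt_le_one I hI h1
    omega
  by_cases h2 : lp I ≤ 2
  · have := opt_le_three I hI h2
    have hc : (1 : ℤ) < ⌈lp I⌉ := Int.lt_ceil.mpr (by push_cast; linarith)
    omega
  by_cases h3 : lp I ≤ 3
  · have := opt_le_four I hI h3
    have hc : (2 : ℤ) < ⌈lp I⌉ := Int.lt_ceil.mpr (by push_cast; linarith)
    omega
  · rcases h with h | h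
    · exact absurd h h3
    · have hc : (3 : ℤ) < ⌈lp I⌉ := Int.lt_ceil.mpr (by push_cast; linarith)
      omega

end Vale.Agent.Results.P302.H7_SmallOpt
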